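import Vale.Agent.P218V.Eq
import Vale.Agent.P218Z.Top

/-!
# P218J: the track of a family of measures, and its regular points
-/

open MeasureTheory Metric Filter Topology Set
open scoped ContDiff ENNReal RealInnerProductSpace
open Vale.Agent.P366W (dvg)
open Vale.Agent.P218R Vale.Agent.P218E Vale.Agent.P218Z

noncomputable section

namespace Vale.Agent.P218J

/-- near `(t, x)` the measures are the areas of a smooth mean curvature flow -/
def RPt (ν : ℝ → Measure E3) (t : ℝ) (x : E3) : Prop :=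
  ∃ u : ℝ → E3 → ℝ, ContDiff ℝ ∞ (Function.uncurry u) ∧ gradient (u t) x ≠ 0 ∧
    ∃ r > (0 : ℝ), ∀ s ∈ Ioo (t - r) (t + r),
      (ν s).restrict (ball x r) = H2.restrict (ball x r ∩ {y | u s y = 0}) ∧
      ∀ y ∈ ball x r, u s y = 0 → deriv (fun s => u s y) s = ‖gradient (u s) y‖ *
        dvg (fun z => ‖gradient (u s) z‖⁻¹ • gradient (u s) z) y

/-- the time slices of the closure of the space-time support -/
def Trk (ν : ℝ → Measure E3) (t : ℝ) : Set E3 :=
  {x | (t, x) ∈ closure {p : ℝ × E3 | p.2 ∈ (ν p.1).support}}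

variable {ν : ℝ → Measure E3} {t : ℝ} {x : E3}

theorem trk_closed : IsClosed {p : ℝ × E3 | p.2 ∈ Trk ν p.1} := isClosed_closure

theorem trk_sl : IsClosed (Trk ν t) := isClosed_closure.preimage (Continuous.prodMk_right t)

theorem supp_sub : (ν t).support ⊆ Trk ν t := fun _ hx => subset_closure hx

theorem car (ν : ℝ → Measure E3) (t : ℝ) : ∀ᵐ x ∂ν t, x ∈ Trk ν t :=
  mem_of_superset Measure.support_mem_ae supp_sub

theorem box {r : ℝ} (hr : 0 < r) :
    ∀ᶠ p : ℝ × E3 in 𝓝 (t, x), p.1 ∈ Ioo (t - r) (t + r) ∧ p.2 ∈ ball x r :=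
  prod_mem_nhds (Ioo_mem_nhds (by linarith) (by linarith)) (ball_mem_nhds x hr)

theorem ex_box {P : ℝ × E3 → Prop} (h : ∀ᶠ p in 𝓝 (t, x), P p) :
    ∃ r > (0 : ℝ), ∀ s ∈ Ioo (t - r) (t + r), ∀ y ∈ ball x r, P (s, y) := by
  obtain ⟨r, r0, hr⟩ := Metric.eventually_nhds_iff_ball.1 h
  refine ⟨r, r0, fun s hs y hy => hr _ ?_⟩
  rw [← ball_prod_same, Real.ball_eq_Ioo]
  exact ⟨hs, hy⟩

/-- a regular level set has positive area in every neighbourhood of its points -/
theorem pos_area {w : E3 → ℝ} (hw : ContDiff ℝ ∞ w) (h0 : w x = 0) (hg : gradient w x ≠ 0)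
    {U : Set E3} (hU : U ∈ 𝓝 x) : 0 < H2 (U ∩ {y | w y = 0}) := by
  obtain ⟨V, h1, h2, h3⟩ := _root_.mem_nhds_iff.1 hU
  refine (pos_iff_ne_zero.2 fun h => ?_).trans_le (measure_mono (inter_subset_inter_left _ h1))
  obtain ⟨ρ, hρ⟩ := (low_pt (ν := 0) (Measure.restrict_eq_zero.2 h).le
    (h2.measurableSet.inter (isClosed_eq hw.continuous continuous_const).measurableSet)
    hw.continuous (hw.differentiable (by simp) x) h0 hg
    (Filter.mem_of_superset (h2.mem_nhds h3) fun y hy hy' => ⟨hy, hy'⟩) one_pos).exists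
  simp [gs] at hρ

theorem RPt.loc (h : RPt ν t x) : ∃ u : ℝ → E3 → ℝ, ContDiff ℝ ∞ (Function.uncurry u) ∧
    gradient (u t) x ≠ 0 ∧ (∀ᶠ p : ℝ × E3 in 𝓝 (t, x), (p.2 ∈ Trk ν p.1 ↔ u p.1 p.2 = 0) ∧
      (p.2 ∈ (ν p.1).support ↔ u p.1 p.2 = 0)) ∧ ∃ r > (0 : ℝ), ∀ s ∈ Ioo (t - r) (t + r),
      (ν s).restrict (ball x r) = H2.restrict (ball x r ∩ {y | u s y = 0}) ∧
      ∀ y ∈ ball x r, u s y = 0 → deriv (fun s => u s y) s = ‖gradient (u s) y‖ *
        dvg (fun z => ‖gradient (u s) z‖⁻¹ • gradient (u s) z) y := by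
  obtain ⟨u, su, hg, r, r0, hr⟩ := h
  refine ⟨u, su, hg, ?_, r, r0, hr⟩
  have sg := (Flw.sm_grad (a := t - 1) (b := t + 1) (m := 0) su.contDiffOn (by simp)).continuousOn
  have h1 := (sg.continuousAt (Flw.mem_dom (t := t) ⟨by linarith, by linarith⟩ x)).eventually_ne hg
  have h2 : ∀ᶠ p : ℝ × E3 in 𝓝 (t, x), p.2 ∈ (ν p.1).support ↔ u p.1 p.2 = 0 := by
    filter_upwards [h1, box r0] with ⟨s, y⟩ p1 ⟨p2, p3⟩
    have c : ContDiff ℝ ∞ (u s) := su.comp (contDiff_prodMk_right s)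
    have e : ∀ U, IsOpen U → ν s (U ∩ ball x r) = H2 (U ∩ ball x r ∩ {y | u s y = 0}) :=
      fun U hU => by
        rw [← Measure.restrict_apply hU.measurableSet, (hr s p2).1,
          Measure.restrict_apply hU.measurableSet, inter_assoc]
    refine ⟨fun h => by_contra fun h' => ?_, fun h => (Measure.mem_support_iff_forall _).2
      fun U hU => ?_⟩
    · have o : IsOpen {y | u s y ≠ 0} := isOpen_ne_fun c.continuous continuous_const
      have := (Measure.mem_support_iff_forall _).1 h _ ((o.inter isOpen_ball).mem_nhds ⟨h', p3⟩)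
      rw [e _ o] at this
      obtain ⟨z, hz⟩ := nonempty_of_measure_ne_zero this.ne'
      exact hz.1.1 hz.2
    · obtain ⟨V, v1, v2, v3⟩ := _root_.mem_nhds_iff.1 hU
      refine (pos_area c h p1 ((v2.inter isOpen_ball).mem_nhds ⟨v3, p3⟩)).trans_le ?_
      rw [← e V v2]
      exact measure_mono (inter_subset_left.trans v1)
  filter_upwards [h2.eventually_nhds] with p hp
  refine ⟨⟨fun h => ?_, fun h => supp_sub (hp.self_of_nhds.2 h)⟩, hp.self_of_nhds⟩
  exact (isClosed_eq su.continuous continuous_const).closure_subset (mem_closure_iff_frequently.2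
    (((mem_closure_iff_frequently.1 h).and_eventually hp).mono fun q hq => hq.2.1 hq.1))

theorem RPt.reg (h : RPt ν t x) : RegPt (Trk ν) t x := by
  obtain ⟨u, su, hg, h1, r, r0, hr⟩ := h.loc
  refine ⟨u, su, hg, ?_⟩
  filter_upwards [h1, box r0] with p p1 p2
  exact ⟨p1.1, fun h => (hr _ p2.1).2 _ p2.2 (p1.1.1 h)⟩

theorem RPt.supp (h : RPt ν t x) (hx : x ∈ Trk ν t) : x ∈ (ν t).support := by
  obtain ⟨u, -, -, h1, -⟩ := h.loc
  exact h1.self_of_nhds.2.2 (h1.self_of_nhds.1.1 hx)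

theorem RPt.eq (h : RPt ν t x) :
    ∃ r > (0 : ℝ), (ν t).restrict (ball x r) = (H2.restrict (Trk ν t)).restrict (ball x r) := by
  obtain ⟨u, -, -, h1, r, r0, hr⟩ := h.loc
  obtain ⟨ρ, ρ0, v1⟩ := Metric.eventually_nhds_iff_ball.1
    (((Continuous.prodMk_right t).continuousAt.eventually h1).and (ball_mem_nhds x r0))
  refine ⟨ρ, ρ0, ?_⟩
  have s : ball x ρ ⊆ ball x r := fun y hy => (v1 y hy).2
  rw [← Measure.restrict_restrict_of_subset (μ := ν t) s, (hr t ⟨by linarith, by linarith⟩).1,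
    Measure.restrict_restrict measurableSet_ball, Measure.restrict_restrict measurableSet_ball]
  congr 1
  ext y
  exact ⟨fun h => ⟨h.1, (v1 y h.1).1.1.2 h.2.2⟩, fun h => ⟨h.1, s h.1, (v1 y h.1).1.1.1 h.2⟩⟩

/-- points outside the track are regular -/
theorem rpt_out (h : x ∉ Trk ν t) : RPt ν t x := by
  obtain ⟨e, he⟩ : ∃ e : E3, ‖e‖ = 1 := ⟨EuclideanSpace.single 0 1, by simp⟩
  obtain ⟨r, r0, hr⟩ := ex_box ((trk_closed.isOpen_compl.eventually_mem (x := (t, x)) h).and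
    (box one_pos))
  have z : ∀ y ∈ ball x r, 1 + ⟪e, y - x⟫ ≠ 0 := fun y hy => by
    have h1 := abs_real_inner_le_norm e (y - x)
    have h2 := mem_ball_iff_norm.1 (hr t ⟨by linarith, by linarith⟩ y hy).2.2
    rw [he] at h1
    linarith [(abs_le.1 h1).1]
  refine ⟨fun _ y => 1 + ⟪e, y - x⟫, contDiff_const.add (contDiff_const.inner ℝ
    (contDiff_snd.sub contDiff_const)), ?_, r, r0, fun s hs => ⟨?_, fun y hy h => (z y hy h).elim⟩⟩
  · have : HasFDerivAt (fun y : E3 => 1 + ⟪e, y - x⟫) (innerSL ℝ e) x := by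
      simpa [inner_sub_right] using ((innerSL ℝ e).hasFDerivAt.sub_const ⟪e, x⟫).const_add 1
    rw [grad_ne_iff, this.fderiv]
    intro h
    have := congrArg (fun L : E3 →L[ℝ] ℝ => L e) h
    simp [he] at this
  · rw [Measure.restrict_eq_zero.2 (measure_mono_null
      (fun y hy h => (hr s hs y hy).1 (supp_sub h)) Measure.measure_compl_support), eq_comm,
      Measure.restrict_eq_zero]
    exact measure_mono_null (fun y hy => (z y hy.1 hy.2).elim) measure_empty

theorem eq_of_rpt (h : ∀ x, RPt ν t x) : ν t = H2.restrict (Trk ν t) :=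
  P218V.eq_loc (W := univ) (.of_forall fun _ => trivial) (.of_forall fun _ => trivial)
    fun x _ => (h x).eq

theorem supp_of_rpt (h : ∀ x, RPt ν t x) : (ν t).support = Trk ν t :=
  supp_sub.antisymm fun x hx => (h x).supp hx

end Vale.Agent.P218J
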