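import Vale.Agent.P218J.A
import Vale.Agent.P218V.Gap

/-!
# P218J: the track of a Brakke flow for which almost every time is regular
-/

open MeasureTheory Metric Filter Topology Set
open scoped ContDiff ENNReal NNReal RealInnerProductSpace
open Vale.Agent.P218.H552
open Vale.Agent.P218R Vale.Agent.P218E Vale.Agent.P218Z

noncomputable section

namespace Vale.Agent.P218J

variable {ν : ℝ → Measure E3} {T : ℝ → E3 → Submodule ℝ E3} {H : ℝ → E3 → E3} {a b s t r Λ : ℝ}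
  {x y : E3}

/-- mass does not appear suddenly -/
theorem van (hB : BF 2 ν T H) (hs : 0 ≤ s) (hst : s ≤ t) (hr : 0 < r) (h1 : ν s (ball x r) = 0)
    (h2 : ∀ᵐ τ, τ ∈ Ioc s t → ν τ (ball x r) = 0) : x ∉ (ν t).support := by
  let f : ContDiffBump x := ⟨r / 4, r / 2, by positivity, by linarith⟩
  let η : ContDiffBump (0 : ℝ) := ⟨t + 1, t + 2, by linarith, by linarith⟩
  have z : ∀ y ∉ ball x r, ∀ᶠ w in 𝓝 y, f w = 0 := fun y hy =>
    notMem_tsupport_iff_eventuallyEq.1 fun h => hy (closedBall_subset_ball (half_lt_self hr)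
      (f.tsupport_eq ▸ h))
  have ae : ∀ τ, ν τ (ball x r) = 0 → ∀ᵐ y ∂ν τ, ∀ᶠ w in 𝓝 y, f w = 0 := fun τ h =>
    (measure_eq_zero_iff_ae_notMem.1 h).mono z
  obtain ⟨-, h⟩ := hB.ineq (fun τ y => η τ * f y)
    ((η.contDiff.comp contDiff_fst).mul (f.contDiff.comp contDiff_snd))
    (HasCompactSupport.intro ((isCompact_closedBall (0 : ℝ) η.rOut).prod
      (isCompact_closedBall x f.rOut)) fun p hp => by
        rcases not_and_or.1 hp with h | h
        · rw [η.zero_of_le_dist (not_le.1 h).le, zero_mul]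
        · rw [f.zero_of_le_dist (not_le.1 h).le, mul_zero])
    (fun τ y => mul_nonneg η.nonneg f.nonneg) s t hs hst
  have e1 : ∫ y, η s * f y ∂ν s = 0 :=
    integral_eq_zero_of_ae ((ae s h1).mono fun y hy => by simp [hy.self_of_nhds])
  have e2 : ∫ τ in s..t, brakkeRHS (ν τ) (H τ) (fun τ y => η τ * f y) τ = 0 := by
    refine (intervalIntegral.integral_congr_ae (g := fun _ => 0) (h2.mono fun τ k hτ => ?_)).trans
      intervalIntegral.integral_zero
    refine integral_eq_zero_of_ae ((ae τ (k (uIoc_of_le hst ▸ hτ))).mono fun y hy => ?_)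
    have : fderiv ℝ (fun w => η τ * f w) y = fderiv ℝ (fun _ => (0 : ℝ)) y :=
      EventuallyEq.fderiv_eq (hy.mono fun w hw => by simp [hw])
    simp [hy.self_of_nhds, this]
  have e3 : η t = 1 := η.one_of_mem_closedBall (by
    rw [mem_closedBall, dist_zero_right, Real.norm_eq_abs, abs_of_nonneg (hs.trans hst)]
    exact (lt_add_one t).le)
  simp only [e1, e2, e3, one_mul, sub_zero] at h
  have := hB.fin t (hs.trans hst)
  have k := (integral_eq_zero_iff_of_nonneg (fun _ => f.nonneg)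
    (f.continuous.integrable_of_hasCompactSupport f.hasCompactSupport)).1
    (h.antisymm (integral_nonneg fun _ => f.nonneg))
  refine Measure.notMem_support_iff_exists.2 ⟨_, closedBall_mem_nhds x f.rIn_pos, ?_⟩
  exact measure_eq_zero_iff_ae_notMem.2 (k.mono fun y hy h => by
    simp [f.one_of_mem_closedBall h] at hy)

variable (hB : BF 2 ν T H) (ha : 0 ≤ a) (ae : ∀ᵐ t, t ∈ Ioo a b → ∀ x, RPt ν t x)
include hB ha ae

theorem dense (ht : t ∈ Ioo a b) (hx : x ∈ Trk ν t) :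
    (t, x) ∈ closure {p : ℝ × E3 | p.2 ∈ Trk ν p.1 ∧ p.1 ∈ Ioo a b ∧ ∀ y, RPt ν p.1 y} := by
  have o : IsOpen {p : ℝ × E3 | p.1 ∈ Ioo a b} := isOpen_Ioo.preimage continuous_fst
  refine closure_minimal (fun ⟨t, x⟩ ⟨ht, hx⟩ => by_contra fun h => ?_) isClosed_closure
    (o.inter_closure ⟨ht, hx⟩)
  obtain ⟨r, r0, hr⟩ := ex_box ((isClosed_closure.isOpen_compl.eventually_mem h).and
    (o.eventually_mem ht))
  have k : ∀ᵐ s, s ∈ Ioo (t - r) (t + r) → ν s (ball x r) = 0 := ae.mono fun s h1 h2 =>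
    measure_mono_null (fun y hy h3 => (hr s h2 y hy).1 (subset_closure
      ⟨supp_sub h3, (hr s h2 y hy).2, h1 (hr s h2 y hy).2⟩)) Measure.measure_compl_support
  obtain ⟨s, hs, k1⟩ := Measure.exists_mem_of_measure_ne_zero_of_ae
    (s := Ioo (t - r) t) (μ := volume) (by simpa using r0) (ae_restrict_of_ae k)
  have m : s ∈ Ioo (t - r) (t + r) := ⟨hs.1, by linarith [hs.2]⟩
  exact van hB (ha.trans (hr s m x (mem_ball_self r0)).2.1.le) hs.2.le r0 (k1 m)
    (k.mono fun τ h1 h2 => h1 ⟨hs.1.trans h2.1, by linarith [h2.2]⟩) hx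

variable (h0 : ν 0 univ < ⊤)
include h0

theorem ld (ht : 0 ≤ t) (hts : t < s) (hs : s ∈ Ioo a b) (hy : y ∈ Trk ν s) :
    1 ≤ gs (ν t) y √(s - t) := by
  have := hB.finite h0 ht
  refine ld_cl hts ((mem_closure_iff_frequently.1 (dense hB ha ae hs hy)).mono fun q hq h4 => ?_)
  have := hB.finite h0 (ht.trans h4.le)
  exact ld_reg (κ := ν q.1) h4 (fun t₀ h5 => gs_mono hB h0 ht h4.le h5 _)
    trk_sl.measurableSet (eq_of_rpt hq.2.2).ge hq.1 (hq.2.2 _).reg

theorem cpt {c d : ℝ} (hc : a < c) (hd : d < b) :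
    IsCompact {p : ℝ × E3 | p.1 ∈ Icc c d ∧ p.2 ∈ Trk ν p.1} := by
  have := hB.finite h0 le_rfl
  have c0 := ha.trans_lt hc
  have p := Real.pi_pos
  have n : ∀ {s : ℝ} (v : E3), 0 < s → -‖v‖ ^ 2 / s ≤ 0 := fun v hs =>
    div_nonpos_of_nonpos_of_nonneg (neg_nonpos.2 (sq_nonneg _)) hs.le
  have D : 0 < 4 * max c d := by positivity
  have l : Tendsto (fun y : E3 => ∫ z, Real.exp (-‖z - y‖ ^ 2 / (4 * max c d)) ∂ν 0)
      (comap norm atTop) (𝓝 (∫ _, 0 ∂ν 0)) := by
    refine tendsto_integral_filter_of_dominated_convergence (fun _ => 1)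
      (.of_forall fun y => by fun_prop) (.of_forall fun y => .of_forall fun z => ?_)
      (integrable_const _) (.of_forall fun z => Real.tendsto_exp_atBot.comp
        ((tendsto_neg_atTop_atBot.comp ((tendsto_pow_atTop two_ne_zero).comp ?_)).atBot_div_const D))
    · rw [Real.norm_eq_abs, abs_of_pos (Real.exp_pos _)]
      exact Real.exp_le_one_iff.2 (n _ D)
    · refine tendsto_atTop_mono (fun y => ?_)
        (tendsto_atTop_add_const_right _ (-‖z‖) tendsto_comap)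
      rw [norm_sub_rev]
      exact norm_sub_norm_le y z
  rw [integral_zero] at l
  obtain ⟨R, hR⟩ := eventually_atTop.1 (eventually_comap.1
    (l.eventually (gt_mem_nhds (show 0 < 4 * Real.pi * c by positivity))))
  refine (isCompact_Icc.prod (isCompact_closedBall (0 : E3) R)).of_isClosed_subset
    ((isClosed_Icc.preimage continuous_fst).inter trk_closed) fun ⟨s, y⟩ ⟨hs, hy⟩ => ⟨hs, ?_⟩
  refine mem_closedBall_zero_iff.2 (not_lt.1 fun h => ?_)
  have s0 : 0 < s := c0.trans_le hs.1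
  have h1 := ld hB ha ae h0 le_rfl s0 ⟨hc.trans_le hs.1, hs.2.trans_lt hd⟩ hy
  rw [gs, sub_zero, Real.sq_sqrt s0.le, le_inv_mul_iff₀ (by positivity), mul_one] at h1
  have h2 := integral_mono (Ld.int_exp (ν 0) (f := fun z => -‖z - y‖ ^ 2 / (4 * s)) (by fun_prop)
    fun z => n _ (by positivity)) (Ld.int_exp (ν 0) (f := fun z => -‖z - y‖ ^ 2 / (4 * max c d))
      (by fun_prop) fun z => n _ D) fun z => Real.exp_le_exp.2 (by
      rw [neg_div, neg_div, neg_le_neg_iff]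
      gcongr
      exact hs.2.trans (le_max_right _ _))
  have h3 := hR _ h.le y rfl
  nlinarith [show c ≤ s from hs.1]

omit hB ha ae h0 in
/-- near a regular point the time slices are graphs with small slope -/
theorem slope {M : ℝ → Set E3} (h : RegPt M t x) {σ : ℝ} (σ0 : 0 < σ) : ∃ R > (0 : ℝ), ∃ e : E3,
    ‖e‖ = 1 ∧ ∀ s ∈ Ioo (t - R) (t + R), ∀ p ∈ ball x R ∩ M s, ∀ q ∈ ball x R ∩ M s,
      |⟪q - p, e⟫| ≤ σ * ‖q - p‖ := by
  obtain ⟨u, su, hg, hu⟩ := h
  have g0 := norm_pos_iff.2 hg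
  have sg := (Flw.sm_grad (a := t - 1) (b := t + 1) (m := 0) su.contDiffOn (by simp)).continuousOn
  obtain ⟨R, R0, hR⟩ := ex_box (hu.and ((sg.continuousAt (Flw.mem_dom (t := t)
    ⟨by linarith, by linarith⟩ x)).eventually (closedBall_mem_nhds _ (mul_pos σ0 g0))))
  refine ⟨R, R0, _, norm_smul_inv_norm (𝕜 := ℝ) hg, fun s hs p hp q hq => ?_⟩
  have c : ContDiff ℝ ∞ (u s) := su.comp (contDiff_prodMk_right s)
  have k := (convex_ball x R).norm_image_sub_le_of_norm_fderiv_le' (𝕜 := ℝ) (f := u s)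
    (φ := fderiv ℝ (u t) x) (C := σ * ‖gradient (u t) x‖)
    (fun y _ => c.differentiable (by simp) y) (fun y hy => by
      have := mem_closedBall_iff_norm.1 (hR s hs y hy).2
      rwa [← (InnerProductSpace.toDual ℝ E3).symm.norm_map, map_sub]) hp.1 hq.1
  rw [(hR s hs p hp.1).1.1.1 hp.2, (hR s hs q hq.1).1.1.1 hq.2, sub_self, zero_sub, norm_neg,
    Wm.fd_grad, Real.norm_eq_abs, real_inner_comm] at k
  rw [real_inner_smul_right, abs_mul, abs_of_pos (by simpa using hg), RCLike.ofReal_real_eq_id, id,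
    inv_mul_le_iff₀ g0]
  linarith

/-- regular points of the track have density one -/
theorem lim1 (hΛ : 0 ≤ Λ) (ar : ∀ s ∈ Ioo a b, AR Λ (ν s)) (ht : t ∈ Ioo a b) (hx : x ∈ Trk ν t)
    (h : RegPt (Trk ν) t x) : Tendsto (fun r => gs (ν (t - r ^ 2)) x r) (𝓝[>] 0) (𝓝 1) := by
  have ev : ∀ R > (0 : ℝ), ∀ᶠ r in 𝓝[>] (0 : ℝ), 0 < r ∧ r ^ 2 < R := fun R hR =>
    (eventually_mem_nhdsWithin).and ((((continuous_pow 2).tendsto' 0 0 (by simp)).mono_left
      nhdsWithin_le_nhds).eventually (gt_mem_nhds hR))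
  have ta := sub_pos.2 ht.1
  refine tendsto_order.2 ⟨fun c hc => ?_, fun c hc => ?_⟩
  · filter_upwards [ev _ ta] with r ⟨a1, a2⟩
    have := ld hB ha ae h0 (t := t - r ^ 2) (by linarith) (by nlinarith) ht hx
    rw [sub_sub_cancel, Real.sqrt_sq a1.le] at this
    linarith
  obtain ⟨θ, θ0, θ1, θ2⟩ : ∃ θ > (0 : ℝ), θ ≤ 1 ∧ 1 + 2 * θ < c :=
    ⟨min 1 ((c - 1) / 3), by simp [hc], min_le_left _ _, by
      linarith [min_le_right 1 ((c - 1) / 3)]⟩
  obtain ⟨R, R0, e', he', h4⟩ := slope h (half_pos θ0)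
  obtain ⟨r, h5, ⟨a1, a2⟩, ⟨-, a3⟩, a4⟩ := ((P218V.freq ae t).and_eventually ((ev _ ta).and
    ((ev R R0).and (Gs.small (r := R) (Gs.C0 * Λ) θ0)))).exists
  have r2 := pow_pos a1 2
  have t0 : t - r ^ 2 ∈ Ioo a b := ⟨by linarith, by linarith [ht.2]⟩
  have p := Real.pi_pos
  have a5 := Gs.tail_gs (y := x) hΛ (ar _ t0) a1 R0 (measurableSet_ball (x := x) (ε := R)).compl
    (.of_forall fun z hz => not_lt.1 fun h => hz (mem_ball_iff_norm.2 h))
  have a6 := Fl.gra_le (A := ball x R ∩ Trk ν (t - r ^ 2)) (K := (√(1 + θ)).toNNReal) he'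
    (σ := θ / 2) (by
      rw [Real.coe_toNNReal _ (Real.sqrt_nonneg _), Real.sq_sqrt (by linarith)]
      nlinarith [mul_le_one₀ θ1 θ0.le θ1])
    (h4 _ ⟨by linarith, by linarith⟩) x (c := 4 * r ^ 2) (by positivity)
  rw [Real.coe_toNNReal _ (Real.sqrt_nonneg _), Real.sq_sqrt (by linarith),
    ← Measure.restrict_restrict measurableSet_ball, ← eq_of_rpt (h5 t0)] at a6
  have a7 := mul_le_mul_of_nonneg_left a6 (show 0 ≤ (4 * Real.pi * r ^ 2)⁻¹ by positivity)
  have a8 : (4 * Real.pi * r ^ 2)⁻¹ * ((1 + θ) * (Real.pi * (4 * r ^ 2))) = 1 + θ := by field_simp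
  have a9 : gs (ν (t - r ^ 2)) x r < c := by
    rw [gs, ← integral_add_compl (measurableSet_ball (x := x) (ε := R))
      (Gs.intg hΛ (ar _ t0) x (by positivity)), mul_add]
    linarith only [a4, a5, a7, a8, θ2]
  filter_upwards [ev _ r2] with q ⟨b1, b2⟩
  have := gs_mono hB h0 (s₁ := t - r ^ 2) (s₂ := t - q ^ 2) (t₀ := t) (ha.trans t0.1.le)
    (by linarith) (by nlinarith) x
  rw [sub_sub_cancel, sub_sub_cancel, Real.sqrt_sq a1.le, Real.sqrt_sq b1.le] at this
  exact this.trans_lt a9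

end Vale.Agent.P218J
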