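import Vale.Agent.P218J.B
import Vale.Agent.P218F.Itr
import Vale.Agent.P218F.Br
import Vale.Agent.P218Z.Slc

/-!
# P218J: almost regular Brakke flows, from the definition in terms of the measures to `IsAlm2`
-/

open MeasureTheory Metric Filter Topology Set
open scoped ContDiff ENNReal NNReal RealInnerProductSpace
open Vale.Agent.P366.Stmt (E)
open Vale.Agent.P366W
open Vale.Agent.P218 (IsIntegralBrakkeFlow densityRatio)
open Vale.Agent.P218.H552
open Vale.Agent.P218R Vale.Agent.P218E Vale.Agent.P218Z Vale.Agent.P218F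

noncomputable section

namespace Vale.Agent.P218J

variable {μ : ℝ → Measure E3} {c : ℝ≥0} {a b t : ℝ} {x : E3}

theorem plane (hc : H2 = c • (μH[2] : Measure E3)) : c * planeDensity = 1 := by
  obtain ⟨L, -⟩ := Gs.ex_fr (e := EuclideanSpace.single 0 1) (by simp)
  have e : (volume : Measure (E 2)) = c • (μH[2] : Measure (E 2)) := Measure.ext fun s _ => by
    rw [← EuclideanSpace.euclideanHausdorffMeasure_eq_volume,
      ← L.isometry.euclideanHausdorffMeasure_image, Measure.smul_apply,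
      ← L.isometry.hausdorffMeasure_image (by simp)]
    exact congrArg (fun m : Measure E3 => m (L '' s)) hc
  have h := Gs.pl (c := 4 * 1 ^ 2) (by norm_num) 0
  rw [e, integral_smul_nnreal_measure, NNReal.smul_def, smul_eq_mul] at h
  have p := Real.pi_pos
  rw [planeDensity, densityRatio, mul_pow, Real.sq_sqrt (by positivity), ← mul_div_assoc, h]
  field_simp

theorem unsmul (c0 : c ≠ 0) {κ κ' : Measure E3} (h : c • κ = c • κ') : κ = κ' := by
  simpa [smul_smul, inv_mul_cancel₀ c0] using congrArg (fun m : Measure E3 => c⁻¹ • m) h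

theorem rpt_iff (c0 : c ≠ 0) (hc : H2 = c • (μH[2] : Measure E3)) :
    RPt (fun s => c • μ s) t x ↔ IsRegularPt μ t x := by
  simp only [RPt, IsRegularPt, mean_eq, hc, Measure.restrict_smul]
  refine exists_congr fun u => and_congr_right' (and_congr_right' (exists_congr fun r =>
    and_congr_right' (forall₂_congr fun s _ => and_congr ?_ .rfl)))
  exact ⟨unsmul c0, fun h => by rw [h]⟩

theorem supp_smul (c0 : c ≠ 0) (κ : Measure E3) : (c • κ).support = κ.support := by
  ext x
  simp [Measure.mem_support_iff_forall, pos_iff_ne_zero, c0]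

theorem alm2 (hB : IsIntegralBrakkeFlow 2 μ) (h0 : μ 0 univ < ⊤) (b0 : 0 < b) (hab : a < b)
    (h : IsAlmostRegular μ a b) : ∃ (M : ℝ → Set E3) (a' : ℝ), a' < b ∧ P218V.IsAlm2 μ M a' b := by
  obtain ⟨a', a0, aa, ab⟩ : ∃ c, 0 < c ∧ a < c ∧ c < b := by
    obtain ⟨c, h1, h2⟩ := exists_between (max_lt hab b0)
    exact ⟨c, (le_max_right _ _).trans_lt h1, (le_max_left _ _).trans_lt h1, h2⟩
  have sub : Ioo a' b ⊆ Ioo a b := Ioo_subset_Ioo_left aa.le
  obtain ⟨c, c0, hc⟩ := exists_cH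
  have ar : ∀ s ∈ Ioo a' b, AR _ (c • μ s) := fun s hs => Slc.ar_smul (Slc.ar_B hB h0 a0 hs.1.le) c
  obtain ⟨T, H, hB⟩ := exists_BF hB
  have hν := BF.smul hB c
  have h0' : (c • μ 0) univ < ⊤ := by
    rw [Measure.smul_apply]
    exact ENNReal.mul_lt_top ENNReal.coe_lt_top h0
  have ae : ∀ᵐ t, t ∈ Ioo a' b → ∀ x, RPt (fun s => c • μ s) t x :=
    h.ae.mono fun t k ht x => (rpt_iff c0 hc).2 (k (sub ht) x)
  have un : ∀ c' : ℝ≥0, H2 = c' • (μH[2] : Measure E3) → ∀ t ∈ Ioo a' b, ∀ x,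
      Tendsto (fun r => gs (c' • μ (t - r ^ 2)) x r) (𝓝[>] 0) (𝓝 1) →
      RPt (fun s => c • μ s) t x := fun c' hc' t ht x k => by
    have k1 := k.mul_const planeDensity
    rw [one_mul] at k1
    refine (rpt_iff c0 hc).2 (h.unit t (sub ht) x (k1.congr fun r => ?_))
    rw [Slc.gs_smul, mul_right_comm, plane hc', one_mul, gs, densityRatio, mul_pow,
      Real.sq_sqrt (by positivity), div_eq_inv_mul]
  have rp : ∀ t ∈ Ioo a' b, ∀ x ∈ Trk (fun s => c • μ s) t, RegPt (Trk fun s => c • μ s) t x →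
      RPt (fun s => c • μ s) t x := fun t ht x hx k =>
    un c hc t ht x (lim1 hν a0.le ae h0' (by positivity) ar ht hx k)
  have rt : ∀ t ∈ Ioo a' b, RegT (Trk fun s => c • μ s) t → ∀ x, RPt (fun s => c • μ s) t x :=
    fun t ht k x => (em _).elim (fun hx => rp t ht x hx (k x hx)) rpt_out
  refine ⟨Trk fun s => c • μ s, a', ab, fun _ _ => cpt hν a0.le ae h0', fun t _ => ?_,
    fun t ht x hx => closure_mono (fun p hp => And.intro hp.1 (And.intro hp.2.1
      fun y _ => (hp.2.2 y).reg)) (dense hν a0.le ae ht hx), ae.mono fun t k ht y _ => (k ht y).reg, fun t ht x hx k => ?_,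
    fun t ht k => unsmul c0 ?_, fun c' hc' t ht x _ k => (un c' hc' t ht x k).reg, ?_⟩
  · exact mem_of_superset Measure.support_mem_ae ((supp_smul c0 _).ge.trans
      (supp_sub (ν := fun s => c • μ s)))
  · obtain ⟨r, r0, e⟩ := (rp t ht x hx k).eq
    refine ⟨r, r0, unsmul c0 ?_⟩
    simpa only [hc, Measure.restrict_smul] using e
  · simpa only [hc, Measure.restrict_smul] using eq_of_rpt (rt t ht k)
  · obtain ⟨g, hg⟩ := h.genus
    refine ⟨g, fun t ht k S hS e x hx => ?_⟩
    have e1 := (supp_smul c0 _).symm.trans (supp_of_rpt (rt t ht k))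
    rw [Srf.μ, e, Measure.restrict_restrict_of_subset (connectedComponentIn_subset _ _), ← e1]
    rw [← e1] at e hx
    refine hg t (sub ht) (fun y => (rpt_iff c0 hc).1 (rt t ht k y)) S.K (fun y hy => ?_) x hx
    have hy' : S.w y = 0 := show y ∈ S.G from e ▸ hy
    obtain ⟨ε, e1, -, e3⟩ := shape_loc hS hy' hS.sw (hS.reg y hy') (.of_forall fun _ => .rfl)
    refine ⟨S.w, hS.sw, hS.reg y hy', .of_forall fun z => e ▸ .rfl, ?_⟩
    rw [Srf.K, dt, e3, trc_smul, ContinuousLinearMap.smul_comp, ContinuousLinearMap.comp_smul,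
      smul_smul, e1, one_smul, mul_pow, sq ε, e1, one_mul, mean, sff2, tr_eq, tr_eq]

end Vale.Agent.P218J
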